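import Crest.Agent.X212.M.Lvi

/-!
# Row 212, PN-BAND (helper52): `band : M.BandStmt ι lam` (transplant the band into `Y × S¹`)
-/

set_option autoImplicit false
set_option linter.unusedSectionVars false
set_option maxHeartbeats 400000

open Set Function Filter Topology MeasureTheory Metric
open scoped ContDiff Manifold

namespace Crest.Agent.X212.Bnd52

open An Sob92 Pj41 Met55 R219.Torus Loc66 Cyl58
open Dfl49 (Sur PI pi_of_pt flat_of_const)

noncomputable section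

variable {d : ℕ}

theorem ld_bl (c : EE d) {y : EE d} (hy : y ∈ ball c (1 / 2)) :
    IsLocalDiffeomorphAt (𝓡 d) (𝓡 d) ∞ (proj : EE d → Tor d) y ∧
      ContMDiffAt (𝓡 d) (𝓡 d) ∞ (ballHomeo c).symm (proj y) := by
  have h : (ballHomeo c).symm ∈ IsManifold.maximalAtlas (𝓡 d) ∞ (Tor d) :=
    IsManifold.subset_maximalAtlas ⟨c, rfl⟩
  exact ⟨ld_of_oph (φ := ballHomeo c) (contMDiffOn_symm_of_mem_maximalAtlas h)
    (contMDiffOn_of_mem_maximalAtlas h) hy, contMDiffAt_of_mem_maximalAtlas h ⟨y, hy, rfl⟩⟩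

theorem mf_pr (y : EE d) : mfderiv (𝓡 d) (𝓡 d) (proj : EE d → Tor d) y = ContinuousLinearMap.id ℝ (EE d) := by
  refine HasMFDerivAt.mfderiv ⟨continuous_proj.continuousAt, ?_⟩
  obtain ⟨c, -, hc⟩ := trans_eventually (x := y) (x' := rep (proj y))
    (mem_ball_self (by norm_num)) (mem_chart_source (EE d) (proj y : Tor d))
  exact (((hasFDerivAt_id y).add_const c).congr_of_eventuallyEq hc).hasFDerivWithinAt

theorem exists_bt : ∃ β : Tor d → EE d, ContMDiff (𝓡 d) (𝓡 d) ∞ β ∧ (∀ z, β z ∈ ball 0 1) ∧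
    ∀ y ∈ ball (0 : EE d) (1 / 4), β (proj y) = y := by
  obtain ⟨χ, h1, -, h3, h4, h5⟩ := exists_cut (I := 𝓡 d)
    ((isCompact_closedBall (0 : EE d) (1 / 4)).image continuous_proj) (ballHomeo (0 : EE d)).open_target
    (image_mono (closedBall_subset_ball (by norm_num)))
  refine ⟨fun z => χ z • (ballHomeo 0).symm z, sm_cut h1 h3 ?_, fun z => ?_, fun y hy => ?_⟩
  · rintro _ ⟨y, hy, rfl⟩; exact (ld_bl 0 hy).2
  · by_cases h : z ∈ tsupport χ
    · have := mem_ball_zero_iff.1 ((ballHomeo (0 : EE d)).map_target (h3 h))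
      rw [mem_ball_zero_iff, norm_smul, Real.norm_of_nonneg (h4 z).1]
      nlinarith [h4 z, norm_nonneg ((ballHomeo (0 : EE d)).symm z)]
    · simp [image_eq_zero_of_notMem_tsupport h]
  · simp only [(h5 _ ⟨y, ball_subset_closedBall hy, rfl⟩).eq_of_nhds, Pi.one_apply, one_smul]
    exact ballHomeo_symm_proj (ball_subset_ball (by norm_num) hy)

theorem exists_lin {δ : ℝ} (h : 0 < δ) : ∃ L : EE 1 ≃L[ℝ] ℝ, ∀ s, ‖L.symm s‖ = |s| / δ := by
  let l := (OrthonormalBasis.singleton (Fin 1) ℝ).repr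
  refine ⟨((ContinuousLinearEquiv.unitsEquivAut ℝ (Units.mk0 δ h.ne')⁻¹).trans l.toContinuousLinearEquiv).symm, fun s => ?_⟩
  exact (l.norm_map _).trans (by simp [abs_of_pos h, div_eq_mul_inv])

local instance : MeasurableSpace (Tor d) := borel _
local instance : BorelSpace (Tor d) := ⟨rfl⟩
local instance : SecondCountableTopology (Tor d) := ChartedSpace.secondCountable_of_sigmaCompact (EE d) _

variable {E : Type} [NormedAddCommGroup E] [NormedSpace ℝ E] [FiniteDimensional ℝ E]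
  [MeasurableSpace E] [BorelSpace E]
  {HM : Type} [TopologicalSpace HM] {I : ModelWithCorners ℝ E HM} [I.Boundaryless]
  {M : Type} [TopologicalSpace M] [ChartedSpace HM M] [IsManifold I ∞ M] [MeasurableSpace M]
  {E' : Type} [NormedAddCommGroup E'] [NormedSpace ℝ E'] [FiniteDimensional ℝ E']
  [MeasurableSpace E'] [BorelSpace E']
  {H' : Type} [TopologicalSpace H'] {J : ModelWithCorners ℝ E' H'} [J.Boundaryless]
  {Y : Type} [TopologicalSpace Y] [ChartedSpace H' Y] [IsManifold J ∞ Y] [MeasurableSpace Y] [BorelSpace Y]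
  [T2Space Y] [SecondCountableTopology Y] {ι : Type} [Fintype ι]

theorem vAt_tor {X : VF (J.prod (𝓡 d)) (Y × EE d)} {β : Tor d → EE d} {z : Y × Tor d}
    (hβ : ContMDiffAt (𝓡 d) (𝓡 d) ∞ β z.2) (h : VAt (J.prod (𝓡 d)) X (z.1, β z.2)) :
    VAt (J.prod (𝓡 d)) (fun q : Y × Tor d => (X (q.1, β q.2) : E' × EE d)) z := by
  refine vAt_iff_self.2 ((ContMDiffAt.comp z (f := Prod.map id β) (vAt_iff_self.1 h)
    (contMDiffAt_id.prodMap' hβ)).congr_of_eventuallyEq ?_)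
  filter_upwards [chart_source_mem_nhds (ModelProd H' (EE d)) z] with q hq
  have e : mfderiv (𝓡 d) (𝓡 d) (extChartAt (𝓡 d) z.2) q.2 = ContinuousLinearMap.id ℝ (EE d) := by
    rw [← TangentBundle.continuousLinearMapAt_trivializationAt hq.2, continuousLinearMapAt_eq hq.2]
  have e1 := mfderiv_prodMap (p := q) (mdifferentiableAt_extChartAt (I := J) hq.1)
    (mdifferentiableAt_extChartAt (I := 𝓡 d) hq.2)
  have e2 := mfderiv_prodMap (p := (q.1, β q.2)) (mdifferentiableAt_extChartAt (I := J) hq.1)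
    (mdifferentiableAt_id (I := 𝓡 d))
  rw [e, ← modelWithCornersSelf_prod, chartedSpaceSelf_prod] at e1
  rw [mfderiv_id, ← modelWithCornersSelf_prod, chartedSpaceSelf_prod] at e2
  exact DFunLike.congr_fun (e1.trans e2.symm) _

theorem transplant {ψ : Y × EE d → M} (ld : ∀ q : Y × EE d, q.2 ∈ ball 0 1 → IsLocalDiffeomorphAt (J.prod (𝓡 d)) I ∞ ψ q) :
    ∃ r : Y × Tor d → M, ContMDiff (J.prod (𝓡 d)) I ∞ r ∧ (∀ z, ∃ q : Y × EE d, q.2 ∈ ball 0 1 ∧ ψ q = r z) ∧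
      (∀ y, ∀ t ∈ ball (0 : EE d) (1 / 4), r (y, proj t) = ψ (y, t)) ∧
      ∀ F : Fr I M ι, ∃ F' : Fr (J.prod (𝓡 d)) (Y × Tor d) ι, F'.IsVol ∧ FRel F' F r (univ ×ˢ (proj '' ball 0 (1 / 4))) ∧
        ∀ a b z, F'.P a b z = F.P a b (r z) := by
  obtain ⟨β, b1, b2, b3⟩ := exists_bt (d := d)
  have l := fun z : Y × Tor d => ld (Prod.map id β z) (b2 z.2)
  have s := contMDiff_id (I := J) (M := Y) |>.prodMap b1
  refine ⟨ψ ∘ Prod.map id β, fun z => (l z).contMDiffAt.comp z (s z), fun z => ⟨(z.1, β z.2), b2 z.2, rfl⟩,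
    fun y t ht => congrArg (fun t => ψ (y, t)) (b3 t ht), fun F => ?_⟩
  have f0 := fun z => FAt.pbv (l z) ⟨fun a => F.sm a _, Met55.pre_sp F.toPre _⟩
  have f1 : ∀ z, FAt (I := J.prod (𝓡 d))
      (fun a (z : Y × Tor d) => (pbv (J.prod (𝓡 d)) I ψ (F.e a) (z.1, β z.2) : E' × EE d)) z :=
    fun z => ⟨fun a => vAt_tor (b1 _) ((f0 z).sm a), (f0 z).sp⟩
  refine ⟨rFr _ f1, rFr_vol _ _, ⟨isOpen_univ.prod (isOpenMap_proj _ isOpen_ball), ?_, ?_⟩, fun a b z => ?_⟩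
  · rintro ⟨y, _⟩ ⟨-, t, ht, rfl⟩
    exact ld_comp (l _) (ld_prodMap (ld_id y) (ld_of_comp (ld_bl t (mem_ball_self (by norm_num))).1
      (ld_congr (ld_id t) ((isOpen_ball.eventually_mem ht).mono b3))))
  · rintro a ⟨y, _⟩ ⟨-, t, ht, rfl⟩
    have h1 : mfderiv (𝓡 d) (𝓡 d) β (proj t) = ContinuousLinearMap.id ℝ (EE d) := by
      have e : (β ∘ proj) =ᶠ[𝓝 t] id := (isOpen_ball.eventually_mem ht).mono b3
      have := e.mfderiv_eq (I := 𝓡 d) (I' := 𝓡 d)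
      rwa [mfderiv_comp t ((b1 _).mdifferentiableAt (by simp))
        ((ld_bl t (mem_ball_self (by norm_num))).1.contMDiffAt.mdifferentiableAt (by simp)), mf_pr, mfderiv_id] at this
    rw [mfderiv_comp _ ((l _).contMDiffAt.mdifferentiableAt (by simp)) ((s _).mdifferentiableAt (by simp)),
      mfderiv_prodMap mdifferentiableAt_id ((b1 _).mdifferentiableAt (by simp)), mfderiv_id, h1]
    exact pbv_rel (l _) _
  · rw [fr_P F, comp_apply, ← fP_rel (l z) (f0 z).sp fun a => pbv_rel (l z) _]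
    rfl

/-- **PN-BAND** -/
theorem band (ι lam : Type) [Fintype ι] [Fintype lam] : X212.M.BandStmt ι lam := by
  classical
  intro Z Y _ B G m W ν δ a b hB hG hm hW ld inj fr sur ha hab hb fl
  rcases isEmpty_or_nonempty Y.M with _ | ⟨⟨y₀⟩⟩
  · exact ⟨0, by simp [eq_empty_of_isEmpty {q : Y.M × ℝ | |q.2| ≤ a}]⟩
  have hδ : 0 < δ := by linarith
  obtain ⟨L, hL⟩ := exists_lin hδ
  have l1 : ∀ t : EE 1, t ∈ ball 0 1 → |L t| < δ := fun t h => by
    rwa [mem_ball_zero_iff, ← L.symm_apply_apply t, hL, div_lt_one hδ] at h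
  have l2 : ∀ {s : ℝ}, |s| ≤ b → L.symm s ∈ ball 0 (1 / 4) := fun h => by
    rw [mem_ball_zero_iff, hL, div_lt_iff₀ hδ]; linarith
  obtain ⟨r, r1, r2, r3, r4⟩ := transplant (ι := ι) (ψ := ν ∘ Prod.map id L) fun q h =>
    ld_comp (ld _ (l1 _ h)) (ld_prodMap (ld_id q.1) (L.toDiffeomorph.isLocalDiffeomorph q.2))
  obtain ⟨F, f1, f2, f3⟩ := r4 G.F
  let e := (OpenPartialHomeomorph.refl Y.M).prod (L.symm.toHomeomorph.toOpenPartialHomeomorph.trans (ballHomeo 0))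
  have e1 : ∀ q : Y.M × ℝ, |q.2| ≤ b → q ∈ e.source ∧ e q ∈ univ ×ˢ (proj '' ball 0 (1 / 4)) ∧ r (e q) = ν q := fun q h =>
    ⟨⟨trivial, trivial, ball_subset_ball (by norm_num) (l2 h)⟩, ⟨trivial, _, l2 h, rfl⟩,
      (r3 _ _ (l2 h)).trans (by simp)⟩
  have cp : ∀ c ≤ b, IsCompact (e '' {q | |q.2| ≤ c}) := fun c h =>
    ((isCompact_univ.prod isCompact_Icc).of_isClosed_subset (isClosed_le (by fun_prop) continuous_const)
      fun q k => ⟨trivial, abs_le.1 k⟩).image_of_continuousOn (e.continuousOn.mono fun q k => (e1 q (k.trans h)).1)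
  have hB' := cmB_ok r1 hB
  obtain ⟨A, g1, g2⟩ := geo_patch (F := F) hB' (by funext a b z; rw [f3, hG.P]) f1 (cp b le_rfl) f2.op
    (forall_mem_image.2 fun q k => (e1 q k).2.1) (a := fun b z => G.a b (r z))
    (fun b z _ => ContMDiffAt.comp z (hG.con.sm b (r z)) (r1 z)) (fun b z _ => hG.con.proj b _)
    (fun b z _ => hG.sk b _) (fun b z _ => hG.il b _) fun b z hz => by
      rw [f2.D hz b (u' := B.l) (.of_forall fun _ => rfl)]; exact hG.par b _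
  have o1 : IsOpen (e '' {q | |q.2| < b}) :=
    e.isOpen_image_of_subset_source (isOpen_lt (by fun_prop) continuous_const) fun q k => (e1 q k.le).1
  have f4 : FRel (Geo.mk F A).F G.F r (e '' {q | |q.2| < b}) := f2.mono o1 (forall_mem_image.2 fun q k => (e1 q k.le).2.1)
  have c1 := f4.connOn (fun c _ ⟨q, k, l⟩ => (g2 _ ⟨q, (k.le : |q.2| ≤ b), l⟩).self_of_nhds c) (mapsTo_univ _ _) (IsConn.on hW univ)
  have n0 := cmM_ok r1 hm
  obtain ⟨N, g, N1, N2⟩ := fr.md hB ⟨_, (y₀, 0), by simpa, rfl⟩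
  have r5 : ∀ z, r z ∈ ν '' {q | |q.2| < δ} := fun z => let ⟨q, k, l⟩ := r2 z; ⟨_, l1 _ k, l⟩
  have n1 := cmM_okOn (O := univ) (fun z _ => r1 z) (fun z _ => r5 z) N1
  obtain ⟨V₀, hV⟩ := Spn45.exists_conn hB' g1 (okOn_univ.1 n1)
  obtain ⟨V, v1, v2⟩ := flat_of_const isOpen_univ n1 (IsConn.on hV univ) fun z _ => N2 _ (r5 z)
  have cl : ∀ s t : ℝ, s < t → (∀ x ∈ Ioo s t, a < |x| ∧ |x| < b) → IsOpen (e '' (univ ×ˢ Ioo s t)) ∧ ∃ v,
      PI F (⟨cmM r m, fun a z => W a (r z), fun _ => 0, 0⟩ : Cfg _ ι lam 0) (⟨cmM r N, V, fun _ => 0, 0⟩ : Cfg _ ι lam 0)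
        (e '' (univ ×ˢ Ioo s t)) v := fun s t h k => by
    have s1 : univ ×ˢ Ioo s t ⊆ e.source := fun q l => (e1 q (k _ l.2).2.le).1
    have s2 : e '' (univ ×ˢ Ioo s t) ⊆ e '' {q | |q.2| < b} := image_mono fun q l => (k _ l.2).2
    have o := e.isOpen_image_of_subset_source (isOpen_univ.prod isOpen_Ioo) s1
    have x : (y₀, (s + t) / 2) ∈ univ ×ˢ Ioo s t := ⟨trivial, by linarith, by linarith⟩
    refine ⟨o, pi_of_pt hB' g1 o ⟨OK.on n0 _, c1.mono s2, fun _ _ => contMDiffAt_const, fun _ _ => map_zero _, .inl rfl⟩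
      ⟨OK.on (okOn_univ.1 n1) _, v1.mono (subset_univ _), fun _ _ => contMDiffAt_const, fun _ _ => map_zero _, .inl rfl⟩
      (forall_mem_image.2 fun q l => (f4.Fg (s2 ⟨q, l, rfl⟩) W).trans ?_) (fun z _ => v2 z trivial) (mem_image_of_mem e x)
      (image_singleton ▸ (sur s t _ x).image e s1 (singleton_subset_iff.2 x))⟩
    rw [(e1 q (k _ l.2).2.le).2.2]
    exact fl q (k _ l.2).1 (k _ l.2).2
  obtain ⟨o2, u, p⟩ := cl a b hab fun x k => by rwa [abs_of_pos (ha.trans k.1)]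
  obtain ⟨o3, u', p'⟩ := cl (-b) (-a) (by linarith) fun x k => by
    rw [abs_of_neg (k.2.trans (neg_lt_zero.2 ha))]; exact ⟨lt_neg.1 k.2, neg_lt.1 k.1⟩
  have cv : ∀ z ∈ e '' {q | |q.2| < b} \ e '' {q | |q.2| ≤ a}, z ∈ e '' (univ ×ˢ Ioo a b) ∨ z ∈ e '' (univ ×ˢ Ioo (-b) (-a)) := by
    rintro _ ⟨⟨q, k, rfl⟩, k'⟩
    exact (lt_abs.1 (not_le.1 fun l => k' ⟨q, l, rfl⟩)).imp (fun l => ⟨q, ⟨trivial, l, (abs_lt.1 k).2⟩, rfl⟩)
      fun l => ⟨q, ⟨trivial, (abs_lt.1 k).1, lt_neg.1 l⟩, rfl⟩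
  let w := (e '' (univ ×ˢ Ioo a b)).piecewise u u'
  have w1 : EqOn w u (e '' (univ ×ˢ Ioo a b)) := piecewise_eqOn _ _ _
  have w2 : EqOn w u' (e '' (univ ×ˢ Ioo (-b) (-a))) := by
    rintro _ ⟨q, k, rfl⟩
    refine piecewise_eq_of_notMem _ _ _ fun ⟨q', k', l⟩ => ?_
    obtain rfl := e.injOn (e1 q' (abs_le.2 ⟨by linarith [k'.2.1], k'.2.2.le⟩)).1
      (e1 q (abs_le.2 ⟨k.2.1.le, by linarith [k.2.2]⟩)).1 l
    linarith [k.2.2, k'.2.1]
  have hK := cp a hab.le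
  obtain ⟨k, hk⟩ := int_closed hB' g1 (fun _ _ _ _ H H' C C' => Idg99.kap_sub hB' g1 H C (by simp [Y.dim]) H' C')
    hK.isClosed o1 (image_mono fun q l => l.trans_lt hab) (OK.on n0 _) c1 (okOn_univ.1 n1) (v1.isConn (okOn_univ.1 n1)) (u := w)
    (iso0_of_local fun z h => (cv z h).elim (fun l => ⟨_, l, p.iso.congr o2 w1⟩) fun l => ⟨_, l, p'.iso.congr o3 w2⟩)
    fun z h => (cv z h).elim (Par0.congr p.par o2 w1 z) (Par0.congr p'.par o3 w2 z)
  have k1 : e '' {q | |q.2| ≤ a} ⊆ univ ×ˢ (proj '' ball 0 (1 / 4)) := forall_mem_image.2 fun q l => (e1 q (l.trans hab.le)).2.1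
  refine ⟨k, ?_⟩
  rw [← hk, show ν '' {q | |q.2| ≤ a} = r '' (e '' {q | |q.2| ≤ a}) from (image_congr fun q l =>
    (e1 q (l.trans hab.le)).2.2.symm).trans (image_image _ _ _).symm, frel_int f2 f1 hG.vol hK.measurableSet k1 (by
      rintro _ ⟨q, l, rfl⟩ _ ⟨q', l', rfl⟩ h
      rw [(e1 q (l.trans hab.le)).2.2, (e1 q' (l'.trans hab.le)).2.2] at h
      rw [inj (l.trans_lt (show a < δ by linarith)) (l'.trans_lt (show a < δ by linarith)) h]),
    setIntegral_congr_fun hK.measurableSet fun z hz => (f2.kd (k1 hz) W).symm]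
  simp [kd_eq _ _ V, v2 _ trivial]

end

end Crest.Agent.X212.Bnd52
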